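import Vale.Agent.P197.All

/-!
Saxl's conjecture: the tensor square of the staircase Specht module contains every irreducible.
-/

namespace Vale.Agent.Results.P197.SaxlConjecture

open Vale.Agent.P197

theorem result : ∀ (m : ℕ) (ν : YoungDiagram), ν.cells.card = m * (m + 1) / 2 →
    0 < kronecker (m * (m + 1) / 2) (staircase m) (staircase m) ν :=
  kronecker_staircase_pos_all

end Vale.Agent.Results.P197.SaxlConjecture
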